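import Vale.Agent.P213.Step.Beat

/-!
# P213, Step: inclusions of a sieve into a cosieve retracting on it
-/

open CategoryTheory Limits

noncomputable section

namespace Vale.Agent.P213

variable {n : ℕ∞} {L : SSet.{0} ⥤ NCat n}

theorem mapO_id (E : Type) [PartialOrder E] : mapO L (OrderHom.id : E →o E) = 𝟙 (objO E L) :=
  L.map_id _

/-- The isomorphism of `O(E)` of an order isomorphism. -/
def mapOIso {E F : Type} [PartialOrder E] [PartialOrder F] (e : E ≃o F) :
    objO E L ≅ objO F L where
  hom := mapO L (OrderHomClass.toOrderHom e)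
  inv := mapO L (OrderHomClass.toOrderHom e.symm)
  hom_inv_id := by
    rw [mapO_comp]
    refine Eq.trans (congrArg (fun φ => mapO L φ) ?_) (mapO_id _)
    exact OrderHom.ext _ _ (funext fun y => e.symm_apply_apply y)
  inv_hom_id := by
    rw [mapO_comp]
    refine Eq.trans (congrArg (fun φ => mapO L φ) ?_) (mapO_id _)
    exact OrderHom.ext _ _ (funext fun y => e.apply_symm_apply y)

theorem up_stable_of [HasPushouts (NCat n)] {E : Type} [PartialOrder E] [Finite E]
    (hbeat : ∀ (B : Set E) (x a : B), a < x → (∀ y, y < x → y ≤ a) →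
      Stable n (mapO L (setVal {y : B | y ≠ x})))
    {A : Set E} (hA : IsDwyer A) (h : A ⊆ up A) : Stable n (mapO L (setIncl h)) := by
  classical
  have key : ∀ (k : ℕ) (U : Set E), U.ncard = k → ∀ (hU : U ⊆ up A), Disjoint A U →
      (∀ u ∈ U, ∀ v ∈ up A, u ≤ v → v ∈ U) →
      Stable n (mapO L (setIncl (Set.subset_union_left : A ⊆ A ∪ U))) := by
    intro k
    induction k with
    | zero =>
      intro U hk _ _ _
      rw [Set.ncard_eq_zero] at hk
      subst hk
      let e : A ≃o ↥(A ∪ ∅) := OrderIso.setCongr _ _ (Set.union_empty A).symm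
      exact @Stable.of_isIso _ _ _ _ (mapOIso (L := L) e).isIso_hom
    | succ k ih =>
      intro U hk hU hd hc
      obtain ⟨x, hxm⟩ := U.toFinite.exists_minimal (Set.nonempty_of_ncard_ne_zero (by omega))
      have hxU : x ∈ U := hxm.1
      have hxA : x ∉ A := fun hh => Set.disjoint_left.1 hd hh hxU
      obtain ⟨a, ⟨haA, hax⟩, hag⟩ := hA.2 x (hU hxU)
      have hax' : a < x := lt_of_le_of_ne hax fun he => hxA (he ▸ haA)
      let U' := U \ {x}
      have hU' : U'.ncard = k := by
        rw [Set.ncard_sdiff_singleton_of_mem hxU]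
        omega
      have ih' := ih U' hU' (fun u hu => hU hu.1) (hd.mono_right Set.sdiff_subset)
        fun u hu v hv huv => ⟨hc u hu.1 v hv huv, fun (hvx : v = x) => hu.2 (show u = x from
          le_antisymm (hvx ▸ huv) (hxm.2 hu.1 (hvx ▸ huv)))⟩
      let B := A ∪ U
      let x' : B := ⟨x, Or.inr hxU⟩
      have hb := hbeat B x' ⟨a, Or.inl haA⟩ hax' fun y hy => by
        rcases y.2 with hyA | hyU
        · exact hag ⟨hyA, (show (y : E) < x from hy).le⟩
        · exact absurd (hxm.2 hyU (show (y : E) < x from hy).le)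
            (not_le_of_gt (show (y : E) < x from hy))
      let e : ↥(A ∪ U') ≃o {y : B | y ≠ x'} :=
        { toFun := fun y => ⟨⟨y, y.2.imp id fun hh => hh.1⟩, fun he => y.2.elim
            (fun hh => hxA ((show (y : E) = x from congrArg Subtype.val he) ▸ hh))
            fun hh => hh.2 (show (y : E) = x from congrArg Subtype.val he)⟩
          invFun := fun y => ⟨y.1.1, y.1.2.imp id fun hh => ⟨hh, fun hx => y.2 (Subtype.ext hx)⟩⟩
          left_inv := fun _ => rfl
          right_inv := fun _ => rfl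
          map_rel_iff' := Iff.rfl }
      have hstep : Stable n ((mapOIso (L := L) e).hom ≫ mapO L (setVal {y : B | y ≠ x'})) :=
        Stable.of_arrowIso (mapOIso (L := L) e).symm (Iso.refl _) (by simp) hb
      have hcomp := ih'.comp hstep
      have e2 : (mapOIso (L := L) e).hom ≫ mapO L (setVal {y : B | y ≠ x'}) =
          mapO L ((setVal {y : B | y ≠ x'}).comp (OrderHomClass.toOrderHom e)) := mapO_comp _ _
      rw [e2, mapO_comp] at hcomp
      exact hcomp
  have hd : Disjoint A (up A \ A) := Set.disjoint_left.2 fun y hy hy' => hy'.2 hy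
  have := key _ (up A \ A) rfl Set.sdiff_subset hd
    fun u hu v hv huv => ⟨hv, fun hvA => hu.2 (hA.1 v hvA u huv)⟩
  let e : ↥(A ∪ (up A \ A)) ≃o ↥(up A) := OrderIso.setCongr _ _ (Set.union_sdiff_cancel h)
  refine Stable.of_arrowIso (Iso.refl _) (mapOIso (L := L) e) ?_ this
  rw [Iso.refl_hom, Category.id_comp]
  show mapO L _ = mapO L _ ≫ mapO L (OrderHomClass.toOrderHom e)
  rw [mapO_comp]
  rfl

/-- The inclusion of the bottom of a finite poset is stable. -/
theorem bot_stable_of [HasPushouts (NCat n)] {E : Type} [PartialOrder E] [Finite E]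
    (hbeat : ∀ (B : Set E) (x a : B), a < x → (∀ y, y < x → y ≤ a) →
      Stable n (mapO L (setVal {y : B | y ≠ x})))
    (b : E) (hb : ∀ y, b ≤ y) : Stable n (mapO L (setVal ({b} : Set E))) := by
  have hu : up ({b} : Set E) = Set.univ := Set.eq_univ_of_forall fun y => ⟨b, rfl, hb y⟩
  have hA : IsDwyer ({b} : Set E) :=
    ⟨fun a ha y hy => le_antisymm (ha ▸ hy) (hb y),
      fun w _ => ⟨b, ⟨rfl, hb w⟩, fun a ha => (show a = b from ha.1).le⟩⟩
  have h := up_stable_of hbeat hA (hu ▸ Set.subset_univ _)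
  let e : ↥(up ({b} : Set E)) ≃o E := (OrderIso.setCongr _ _ hu).trans OrderIso.Set.univ
  refine Stable.of_arrowIso (Iso.refl _) (mapOIso (L := L) e) ?_ h
  rw [Iso.refl_hom, Category.id_comp]
  show mapO L _ = mapO L _ ≫ mapO L (OrderHomClass.toOrderHom e)
  rw [mapO_comp]
  rfl

end Vale.Agent.P213
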