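import Vale.Agent.P213.Step.Zigzag
import Vale.Agent.P213.Step.Up

/-!
# P213, Step: beat points and Dwyer inclusions, for any left adjoint of the nerve
-/

open CategoryTheory Limits

noncomputable section

namespace Vale.Agent.P213

variable {n : ℕ∞} {L : SSet.{0} ⥤ NCat n} (adj : L ⊣ nerveN n) {c : CylData} (T : TransData c)

include adj T in
/-- Inclusions of beat-point complements are stable. -/
theorem beat_stable_gen {E : Type} [PartialOrder E] [Finite E] (x a : E) (ha : a < x)
    (hmax : ∀ y, y < x → y ≤ a) :
    Stable n (mapO L (⟨Subtype.val, fun _ _ h => h⟩ : Punct x →o E)) :=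
  beat_stable_of adj ha hmax c (exists_zigzag ha hmax T)

include adj T in
/-- A sieve is stable in a cosieve retracting on it. -/
theorem up_stable_gen [HasPushouts (NCat n)] {E : Type} [PartialOrder E] [Finite E] {A : Set E}
    (hA : IsDwyer A) (h : A ⊆ up A) : Stable n (mapO L (setIncl h)) :=
  up_stable_of (fun _ x a ha hmax => beat_stable_gen adj T x a ha hmax) hA h

include adj T in
/-- The bottom of a finite poset is stable. -/
theorem bot_stable_gen [HasPushouts (NCat n)] {E : Type} [PartialOrder E] [Finite E] (b : E)
    (hb : ∀ y, b ≤ y) : Stable n (mapO L (setVal ({b} : Set E))) :=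
  bot_stable_of (fun _ x a ha hmax => beat_stable_gen adj T x a ha hmax) b hb

end Vale.Agent.P213
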