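import Vale.Agent.P213.Step.Family

/-!
# P213, Step: beat points, from a zigzag of natural families
-/

open CategoryTheory Limits

noncomputable section

namespace Vale.Agent.P213

variable {E : Type} [PartialOrder E] {a x : E}

/-- The identity family. -/
def idEndo (a x : E) : Endo a x (𝟭 OmegaCat) (𝟙 _) where
  app J _ _ _ := 𝟙 (ori J)
  nat _ _ _ _ _ _ _ _ _ := (Category.id_comp _).trans (Category.comp_id _).symm
  fix _ _ _ _ _ _ _ := rfl

open Classical in
/-- The retraction of a beat point, on `E`. -/
def beatMap (hax : a < x) (hmax : ∀ y, y < x → y ≤ a) : E →o E where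
  toFun y := if y = x then a else y
  monotone' y z h := by
    by_cases hy : y = x <;> by_cases hz : z = x <;> simp only [if_pos, if_neg, hy, hz, not_false_eq_true]
    · exact le_rfl
    · exact hax.le.trans (hy ▸ h)
    · exact hmax y (lt_of_le_of_ne (hz ▸ h) hy)
    · exact h

/-- The retraction restricted to a chain. -/
def beatRes (hax : a < x) (hmax : ∀ y, y < x → y ≤ a) (J : Set E) (ha : a ∈ J) : J →o J where
  toFun y := ⟨beatMap hax hmax y, by
    classical
    show (if (y : E) = x then a else (y : E)) ∈ J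
    split_ifs <;> first | exact ha | exact y.2⟩
  monotone' _ _ h := (beatMap hax hmax).monotone h

/-- The retraction onto the other points. -/
def beatRetr (hax : a < x) (hmax : ∀ y, y < x → y ≤ a) : E →o Punct x where
  toFun y := ⟨beatMap hax hmax y, by
    classical
    show (if y = x then a else y) ≠ x
    split_ifs with h
    exacts [hax.ne, h]⟩
  monotone' _ _ h := (beatMap hax hmax).monotone h

/-- The family of the retraction. -/
def retrEndo (hax : a < x) (hmax : ∀ y, y < x → y ≤ a) : Endo a x (𝟭 OmegaCat) (𝟙 _) where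
  app J _ ha _ := oriMap (beatRes hax hmax J ha)
  nat J J' _ ha _ _ ha' _ h :=
    (oriMap_comp (beatRes hax hmax J ha) (setIncl h)).symm.trans
      (oriMap_comp (setIncl h) (beatRes hax hmax J' ha'))
  fix J _ ha _ m g hg := by
    refine (oriMap_comp g (beatRes hax hmax J ha)).symm.trans ?_
    refine Eq.trans (congrArg oriMap (OrderHom.ext _ _ (funext fun i => Subtype.ext ?_)))
      (Category.comp_id _).symm
    classical
    show (if (g i : E) = x then a else (g i : E)) = g i
    rw [if_neg (hg i)]

/-- One transformation between two families. -/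
def FamTrans (c : CylData) (u v : Endo a x (𝟭 OmegaCat) (𝟙 _)) : Prop :=
  ∃ H : Endo a x c.G c.cst,
    (∀ J hJ ha hx, H.app J hJ ha hx ≫ c.ev₀.app (ori J) = u.app J hJ ha hx) ∧
    (∀ J hJ ha hx, H.app J hJ ha hx ≫ c.ev₁.app (ori J) = v.app J hJ ha hx)

variable {n : ℕ∞} {L : SSet.{0} ⥤ NCat n} (adj : L ⊣ nerveN n) [Finite E]
  (hax : a < x) (hmax : ∀ y, y < x → y ≤ a)

/-- The endomorphism of `O(E)` of a family. -/
def liftId (u : Endo a x (𝟭 OmegaCat) (𝟙 _)) : objO E L ⟶ objO E L :=
  lift adj hax hmax (fun _ h => h) u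

theorem eta_liftId (u : Endo a x (𝟭 OmegaCat) (𝟙 _)) {m : ℕ} (f : Fin (m + 1) →o E) :
    eta adj f ≫ (liftId adj hax hmax u).hom = valO adj hax hmax u m f :=
  eta_lift adj hax hmax _ u f

theorem valO_of_ne {G : OmegaCat ⥤ OmegaCat} {unit : 𝟭 OmegaCat ⟶ G} (u : Endo a x G unit) {m : ℕ}
    (f : Fin (m + 1) →o E) (hf : ∀ i, f i ≠ x) :
    valO adj hax hmax u m f = eta adj f ≫ unit.app _ := by
  rw [valO, dif_neg (fun ⟨i, hi⟩ => hf i hi)]

theorem incl_lift {G : OmegaCat ⥤ OmegaCat} {unit : 𝟭 OmegaCat ⟶ G}
    (hG : ∀ Y, OmegaCat.dimLE n Y → OmegaCat.dimLE n (G.obj Y)) (u : Endo a x G unit) :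
    mapO L (setVal {y : E | y ≠ x}) ≫ lift adj hax hmax hG u =
      mapO L (setVal {y : E | y ≠ x}) ≫
        (ObjectProperty.homMk (unit.app (objO E L).obj) :
          objO E L ⟶ ⟨G.obj (objO E L).obj, hG _ (objO E L).property⟩) := by
  refine hom_extO adj fun m f => ?_
  show eta adj f ≫ (mapO L _).hom ≫ _ = eta adj f ≫ (mapO L _).hom ≫ unit.app _
  rw [← Category.assoc, ← Category.assoc, eta_map, eta_lift,
    valO_of_ne adj hax hmax u ((setVal {y : E | y ≠ x}).comp f) fun i => (f i).2]

theorem liftId_idEndo : liftId adj hax hmax (idEndo a x) = 𝟙 _ := by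
  refine hom_extO adj fun m f => ?_
  rw [eta_liftId]
  show _ = eta adj f ≫ 𝟙 _
  rw [Category.comp_id]
  by_cases hf : ∀ i, f i ≠ x
  · rw [valO_of_ne adj hax hmax _ f hf]
    exact Category.comp_id _
  · push Not at hf
    obtain ⟨i, hi⟩ := hf
    rw [valO_eq adj hax hmax _ f (hull a x f) (hull_chain hax hmax f ⟨i, hi⟩)
      (left_mem_hull a x f) (right_mem_hull a x f) (mem_hull a x f)]
    exact (congrArg (oriMap (cores f _ (mem_hull a x f)) ≫ ·) (Category.id_comp _)).trans
      (oriMap_iota adj (hull a x f) (hull_chain hax hmax f ⟨i, hi⟩) ⟨a, left_mem_hull a x f⟩ _)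

theorem liftId_retrEndo :
    liftId adj hax hmax (retrEndo hax hmax) = mapO L (beatMap hax hmax) := by
  refine hom_extO adj fun m f => ?_
  rw [eta_liftId, eta_map]
  by_cases hf : ∀ i, f i ≠ x
  · rw [valO_of_ne adj hax hmax _ f hf]
    refine (Category.comp_id _).trans (congrArg (eta adj) (OrderHom.ext _ _ (funext fun i => ?_)))
    classical
    show f i = if f i = x then a else f i
    rw [if_neg (hf i)]
  · push Not at hf
    obtain ⟨i, hi⟩ := hf
    rw [valO_eq adj hax hmax _ f (hull a x f) (hull_chain hax hmax f ⟨i, hi⟩)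
      (left_mem_hull a x f) (right_mem_hull a x f) (mem_hull a x f)]
    refine (Category.assoc _ _ _).symm.trans ?_
    refine (congrArg (· ≫ iota adj (hull a x f) (hull_chain hax hmax f ⟨i, hi⟩)
      ⟨a, left_mem_hull a x f⟩) (oriMap_comp (cores f _ (mem_hull a x f))
        (beatRes hax hmax _ (left_mem_hull a x f))).symm).trans ?_
    exact oriMap_iota adj (hull a x f) (hull_chain hax hmax f ⟨i, hi⟩) ⟨a, left_mem_hull a x f⟩ _

omit [Finite E] in
theorem mapO_comp {F H : Type} [PartialOrder F] [PartialOrder H] (f : E →o F) (g : F →o H) :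
    mapO L f ≫ mapO L g = mapO L (g.comp f) := by
  rw [mapO, mapO, mapO, ← L.map_comp]
  rfl

include adj in
/-- The inclusion of the other points is stable, given a zigzag of families from the identity to
the retraction. -/
theorem beat_stable_of (c : CylData)
    (hz : Relation.EqvGen (FamTrans c) (idEndo a x) (retrEndo hax hmax)) :
    Stable n (mapO L (setVal {y : E | y ≠ x})) := by
  let ι := mapO L (setVal {y : E | y ≠ x})
  have hfix : ∀ u : Endo a x (𝟭 OmegaCat) (𝟙 _), ι ≫ liftId adj hax hmax u = ι := fun u =>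
    (incl_lift adj hax hmax (fun _ h => h) u).trans (Category.comp_id _)
  have hr : ι ≫ mapO L (beatRetr hax hmax) = 𝟙 _ := by
    refine hom_extO adj fun m f => ?_
    show eta adj f ≫ (mapO L (setVal {y : E | y ≠ x})).hom ≫ (mapO L (beatRetr hax hmax)).hom =
      eta adj f ≫ 𝟙 _
    rw [Category.comp_id, ← Category.assoc, eta_map, eta_map]
    refine congrArg (eta adj) (OrderHom.ext _ _ (funext fun i => Subtype.ext ?_))
    classical
    show (if (f i : E) = x then a else (f i : E)) = f i
    rw [if_neg (f i).2]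
  refine c.stable_of_retraction ι (mapO L (beatRetr hax hmax)) hr ?_
  have hend : liftId adj hax hmax (retrEndo hax hmax) = mapO L (beatRetr hax hmax) ≫ ι := by
    rw [liftId_retrEndo]
    exact (mapO_comp (beatRetr hax hmax) (setVal {y : E | y ≠ x})).symm
  let F : Endo a x (𝟭 OmegaCat) (𝟙 _) → CylData.RelEnd ι := fun u =>
    ⟨liftId adj hax hmax u, hfix u⟩
  have key : ∀ u v, Relation.EqvGen (FamTrans c) u v →
      Relation.EqvGen (c.RelTrans ι) (F u) (F v) := by
    intro u v huv
    induction huv with
    | rel u v huv =>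
      obtain ⟨H, h0, h1⟩ := huv
      refine Relation.EqvGen.rel _ _ ⟨lift adj hax hmax (c.dimLE n) H,
        incl_lift adj hax hmax _ H, ?_, ?_⟩
      · refine hom_extO adj fun m f => ?_
        show eta adj f ≫ (lift adj hax hmax (c.dimLE n) H).hom ≫ c.ev₀.app _ = _
        rw [← Category.assoc, eta_lift, eta_liftId]
        by_cases hf : ∀ i, f i ≠ x
        · rw [valO_of_ne adj hax hmax _ f hf, valO_of_ne adj hax hmax _ f hf, Category.assoc]
          exact congrArg (eta adj f ≫ ·) (congrArg (fun t => NatTrans.app t (objO E L).obj) c.cst_ev₀)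
        · push Not at hf
          obtain ⟨i, hi⟩ := hf
          rw [valO_eq adj hax hmax H f (hull a x f) (hull_chain hax hmax f ⟨i, hi⟩)
              (left_mem_hull a x f) (right_mem_hull a x f) (mem_hull a x f),
            valO_eq adj hax hmax u f (hull a x f) (hull_chain hax hmax f ⟨i, hi⟩)
              (left_mem_hull a x f) (right_mem_hull a x f) (mem_hull a x f),
            Category.assoc, Category.assoc, c.ev₀.naturality, ← Category.assoc (H.app _ _ _ _), h0]
      · refine hom_extO adj fun m f => ?_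
        show eta adj f ≫ (lift adj hax hmax (c.dimLE n) H).hom ≫ c.ev₁.app _ = _
        rw [← Category.assoc, eta_lift, eta_liftId]
        by_cases hf : ∀ i, f i ≠ x
        · rw [valO_of_ne adj hax hmax _ f hf, valO_of_ne adj hax hmax _ f hf, Category.assoc]
          exact congrArg (eta adj f ≫ ·) (congrArg (fun t => NatTrans.app t (objO E L).obj) c.cst_ev₁)
        · push Not at hf
          obtain ⟨i, hi⟩ := hf
          rw [valO_eq adj hax hmax H f (hull a x f) (hull_chain hax hmax f ⟨i, hi⟩)
              (left_mem_hull a x f) (right_mem_hull a x f) (mem_hull a x f),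
            valO_eq adj hax hmax v f (hull a x f) (hull_chain hax hmax f ⟨i, hi⟩)
              (left_mem_hull a x f) (right_mem_hull a x f) (mem_hull a x f),
            Category.assoc, Category.assoc, c.ev₁.naturality, ← Category.assoc (H.app _ _ _ _), h1]
    | refl u => exact Relation.EqvGen.refl _
    | symm u v _ ih => exact ih.symm
    | trans u v w _ _ ih ih' => exact ih.trans _ _ _ ih'
  have h := key _ _ hz
  have e0 : F (idEndo a x) = ⟨𝟙 _, Category.comp_id _⟩ := Subtype.ext (liftId_idEndo adj hax hmax)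
  have e1 : F (retrEndo hax hmax) = ⟨mapO L (beatRetr hax hmax) ≫ ι,
      by rw [← Category.assoc, hr, Category.id_comp]⟩ := Subtype.ext hend
  rw [e0, e1] at h
  exact h

end Vale.Agent.P213
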