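import Vale.Agent.P213.Step.Glue

/-!
# P213, Step: maps out of `O(E)` from families on the chains through `a` and `x`
-/

open CategoryTheory Limits Opposite Simplicial

noncomputable section

namespace Vale.Agent.P213

variable {E : Type} [PartialOrder E]

/-- A monotone map with values in a set. -/
def cores {m : ℕ} (f : Fin (m + 1) →o E) (J : Set E) (h : ∀ i, f i ∈ J) : Fin (m + 1) →o J :=
  ⟨fun i => ⟨f i, h i⟩, fun _ _ hij => f.monotone hij⟩

/-- The set through which a simplex at `x` is factored. -/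
def hull {m : ℕ} (a x : E) (f : Fin (m + 1) →o E) : Set E := insert a (insert x (Set.range f))

theorem mem_hull {m : ℕ} (a x : E) (f : Fin (m + 1) →o E) (i : Fin (m + 1)) :
    f i ∈ hull a x f := Or.inr (Or.inr ⟨i, rfl⟩)

theorem left_mem_hull {m : ℕ} (a x : E) (f : Fin (m + 1) →o E) : a ∈ hull a x f := Or.inl rfl

theorem right_mem_hull {m : ℕ} (a x : E) (f : Fin (m + 1) →o E) : x ∈ hull a x f :=
  Or.inr (Or.inl rfl)

theorem hull_chain {m : ℕ} {a x : E} (hax : a < x) (hmax : ∀ y, y < x → y ≤ a)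
    (f : Fin (m + 1) →o E) (hx : x ∈ Set.range f) : IsChain (· ≤ ·) (hull a x f) := by
  obtain ⟨k, hk⟩ := hx
  have hcx : ∀ i, f i ≤ x ∨ x ≤ f i := fun i => by
    rcases le_total i k with h | h
    · exact Or.inl (hk ▸ f.monotone h)
    · exact Or.inr (hk ▸ f.monotone h)
  have hca : ∀ i, f i ≤ a ∨ a ≤ f i := fun i => by
    rcases hcx i with h | h
    · rcases h.eq_or_lt with h | h
      · exact Or.inr (h ▸ hax.le)
      · exact Or.inl (hmax _ h)
    · exact Or.inr (hax.le.trans h)
  rintro p (rfl | rfl | ⟨i, rfl⟩) q (rfl | rfl | ⟨j, rfl⟩) hpq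
  all_goals first
    | exact absurd rfl hpq
    | exact Or.inl hax.le
    | exact Or.inr hax.le
    | exact (hca _).symm
    | exact hca _
    | exact (hcx _).symm
    | exact hcx _
    | exact (le_total i j).imp (fun h => f.monotone h) (fun h => f.monotone h)

/-- A natural family of functors on the orientals of the chains through `a` and `x`, equal to the
unit away from `x`. -/
structure Endo (a x : E) (G : OmegaCat ⥤ OmegaCat) (unit : 𝟭 OmegaCat ⟶ G) : Type 1 where
  app : ∀ J : Set E, IsChain (· ≤ ·) J → a ∈ J → x ∈ J → (ori J ⟶ G.obj (ori J))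
  nat : ∀ (J J' : Set E) (hJ : IsChain (· ≤ ·) J) (ha : a ∈ J) (hx : x ∈ J)
    (hJ' : IsChain (· ≤ ·) J') (ha' : a ∈ J') (hx' : x ∈ J') (h : J ⊆ J'),
    app J hJ ha hx ≫ G.map (oriMap (setIncl h)) = oriMap (setIncl h) ≫ app J' hJ' ha' hx'
  fix : ∀ (J : Set E) (hJ : IsChain (· ≤ ·) J) (ha : a ∈ J) (hx : x ∈ J) (m : ℕ)
    (g : Fin (m + 1) →o J), (∀ i, (g i : E) ≠ x) →
    oriMap g ≫ app J hJ ha hx = oriMap g ≫ unit.app (ori J)

variable {n : ℕ∞} {L : SSet.{0} ⥤ NCat n} (adj : L ⊣ nerveN n)

/-- `O(E)`. -/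
abbrev objO (E : Type) [PartialOrder E] (L : SSet.{0} ⥤ NCat n) : NCat n :=
  L.obj (CategoryTheory.nerve E)

/-- The functor of a monotone map. -/
abbrev mapO {E F : Type} [PartialOrder E] [PartialOrder F] (L : SSet.{0} ⥤ NCat n) (f : E →o F) :
    objO E L ⟶ objO F L :=
  L.map (CategoryTheory.nerveMap f.monotone.functor)

/-- The simplex of a monotone map. -/
def smpOf {m : ℕ} (f : Fin (m + 1) →o E) : (CategoryTheory.nerve E).obj (op ⦋m⦌) :=
  f.monotone.functor

/-- The monotone map of a simplex. -/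
def ordOf {Δ : SimplexCategoryᵒᵖ} (s : (CategoryTheory.nerve E).obj Δ) :
    Fin (Δ.unop.len + 1) →o E :=
  ⟨s.obj, s.monotone⟩

/-- The functor of a simplex. -/
def eta {m : ℕ} (f : Fin (m + 1) →o E) : ori (Fin (m + 1)) ⟶ (objO E L).obj :=
  ((adj.unit.app (CategoryTheory.nerve E)).app (op ⦋m⦌) (smpOf f)).down

theorem eta_comp {k m : ℕ} (θ : Fin (k + 1) →o Fin (m + 1)) (f : Fin (m + 1) →o E) :
    oriMap θ ≫ eta adj f = eta adj (f.comp θ) := by
  have h := (congrArg ULift.down (NatTrans.naturality_apply (adj.unit.app (CategoryTheory.nerve E))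
    (SimplexCategory.mkHom θ).op (smpOf f))).symm
  have e1 : oriMap θ ≫ eta adj f = ((ConcreteCategory.hom
      (((L ⋙ nerveN n).obj (CategoryTheory.nerve E)).map (SimplexCategory.mkHom θ).op))
      ((ConcreteCategory.hom ((adj.unit.app (CategoryTheory.nerve E)).app (op ⦋m⦌))) (smpOf f))).down :=
    rfl
  exact e1.trans h

theorem eta_map {F : Type} [PartialOrder F] {m : ℕ} (φ : E →o F) (f : Fin (m + 1) →o E) :
    eta adj f ≫ (mapO L φ).hom = eta adj (φ.comp f) :=
  (congrArg (fun t => (NatTrans.app t (op ⦋m⦌) (smpOf f)).down)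
    (adj.unit.naturality (CategoryTheory.nerveMap φ.monotone.functor))).symm

/-- A functor out of `O(E)` from a natural family. -/
def descO {Y : NCat n} (val : ∀ m, (Fin (m + 1) →o E) → (ori (Fin (m + 1)) ⟶ Y.obj))
    (hval : ∀ k m (θ : Fin (k + 1) →o Fin (m + 1)) f, oriMap θ ≫ val m f = val k (f.comp θ)) :
    objO E L ⟶ Y :=
  (adj.homEquiv _ Y).symm
    { app := fun Δ => ↾fun s => ULift.up (val _ (ordOf s))
      naturality := fun Δ Δ' θ => by
        ext s
        exact congrArg ULift.up (hval _ _ θ.unop.toOrderHom (ordOf s)).symm }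

theorem eta_descO {Y : NCat n} (val : ∀ m, (Fin (m + 1) →o E) → (ori (Fin (m + 1)) ⟶ Y.obj))
    (hval : ∀ k m (θ : Fin (k + 1) →o Fin (m + 1)) f, oriMap θ ≫ val m f = val k (f.comp θ))
    {m : ℕ} (f : Fin (m + 1) →o E) : eta adj f ≫ (descO adj val hval).hom = val m f := by
  have h := (adj.homEquiv (CategoryTheory.nerve E) Y).apply_symm_apply
    { app := fun Δ => ↾fun s => ULift.up (val _ (ordOf s))
      naturality := fun Δ Δ' θ => by
        ext s
        exact congrArg ULift.up (hval _ _ θ.unop.toOrderHom (ordOf s)).symm }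
  rw [Adjunction.homEquiv_unit] at h
  exact congrArg (fun t => (NatTrans.app t (op ⦋m⦌) (smpOf f)).down) h

include adj in
theorem hom_extO {Y : NCat n} {u v : objO E L ⟶ Y}
    (h : ∀ m (f : Fin (m + 1) →o E), eta adj f ≫ u.hom = eta adj f ≫ v.hom) : u = v := by
  apply (adj.homEquiv (CategoryTheory.nerve E) Y).injective
  rw [Adjunction.homEquiv_unit, Adjunction.homEquiv_unit]
  ext Δ s
  exact congrArg ULift.up (h Δ.unop.len (ordOf s))

theorem exists_orderIso (J : Set E) [Finite E] (hJ : IsChain (· ≤ ·) J) (hne : J.Nonempty) :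
    ∃ m, Nonempty (Fin (m + 1) ≃o J) := by
  classical
  let _ : LinearOrder J :=
    { (inferInstance : PartialOrder J) with
      le_total := fun p q => hJ.total p.2 q.2
      toDecidableLE := Classical.decRel _
      toDecidableEq := inferInstance
      toDecidableLT := Classical.decRel _ }
  have : Fintype J := Fintype.ofFinite _
  have : Nonempty J := hne.to_subtype
  obtain ⟨m, hm⟩ := Nat.exists_eq_succ_of_ne_zero (Fintype.card_ne_zero (α := J))
  exact ⟨m, ⟨Fintype.orderIsoFinOfCardEq J hm⟩⟩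

variable [Finite E]

/-- The functor of a nonempty chain. -/
def iota (J : Set E) (hJ : IsChain (· ≤ ·) J) (hne : J.Nonempty) : ori J ⟶ (objO E L).obj :=
  oriMap (OrderHomClass.toOrderHom (exists_orderIso J hJ hne).choose_spec.some.symm) ≫
    eta adj ((setVal J).comp (OrderHomClass.toOrderHom (exists_orderIso J hJ hne).choose_spec.some))

theorem oriMap_iota (J : Set E) (hJ : IsChain (· ≤ ·) J) (hne : J.Nonempty) {m : ℕ}
    (g : Fin (m + 1) →o J) : oriMap g ≫ iota adj J hJ hne = eta adj ((setVal J).comp g) := by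
  rw [iota, ← Category.assoc, ← oriMap_comp, eta_comp]
  refine congrArg (eta adj) (OrderHom.ext _ _ (funext fun i => ?_))
  show ((exists_orderIso J hJ hne).choose_spec.some
    ((exists_orderIso J hJ hne).choose_spec.some.symm (g i)) : E) = g i
  rw [OrderIso.apply_symm_apply]

theorem incl_iota (J J' : Set E) (hJ : IsChain (· ≤ ·) J) (hne : J.Nonempty)
    (hJ' : IsChain (· ≤ ·) J') (hne' : J'.Nonempty) (h : J ⊆ J') :
    oriMap (setIncl h) ≫ iota adj J' hJ' hne' = iota adj J hJ hne := by
  set e := (exists_orderIso J hJ hne).choose_spec.some with he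
  have h1 : setIncl h = ((setIncl h).comp (OrderHomClass.toOrderHom e)).comp (OrderHomClass.toOrderHom e.symm) := by
    refine OrderHom.ext _ _ (funext fun p => ?_)
    show setIncl h p = setIncl h (e (e.symm p))
    rw [OrderIso.apply_symm_apply]
  rw [h1, oriMap_comp, Category.assoc, oriMap_iota]
  rw [iota, ← he]
  rfl

variable {a x : E} (hax : a < x) (hmax : ∀ y, y < x → y ≤ a)
  {G : OmegaCat ⥤ OmegaCat} {unit : 𝟭 OmegaCat ⟶ G}

/-- The values of a family on simplices. -/
def valO (u : Endo a x G unit) (m : ℕ) (f : Fin (m + 1) →o E) :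
    ori (Fin (m + 1)) ⟶ G.obj (objO E L).obj := by
  classical
  exact if hx : x ∈ Set.range f then
    oriMap (cores f (hull a x f) (mem_hull a x f)) ≫
      u.app (hull a x f) (hull_chain hax hmax f hx) (left_mem_hull a x f) (right_mem_hull a x f) ≫
        G.map (iota adj (hull a x f) (hull_chain hax hmax f hx) ⟨a, left_mem_hull a x f⟩)
  else eta adj f ≫ unit.app _

theorem valO_eq (u : Endo a x G unit) {m : ℕ} (f : Fin (m + 1) →o E) (J : Set E)
    (hJ : IsChain (· ≤ ·) J) (ha : a ∈ J) (hx : x ∈ J) (hf : ∀ i, f i ∈ J) :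
    valO adj hax hmax u m f = oriMap (cores f J hf) ≫ u.app J hJ ha hx ≫
      G.map (iota adj J hJ ⟨a, ha⟩) := by
  rw [valO]
  split
  next hxf =>
    have hs : hull a x f ⊆ J :=
      Set.insert_subset ha (Set.insert_subset hx (Set.range_subset_iff.2 hf))
    have e : cores f J hf = (setIncl hs).comp (cores f (hull a x f) (mem_hull a x f)) := rfl
    rw [e, oriMap_comp, Category.assoc, ← Category.assoc (oriMap (setIncl hs)), ← u.nat _ _
      (hull_chain hax hmax f hxf) (left_mem_hull a x f) (right_mem_hull a x f) hJ ha hx hs, Category.assoc,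
      ← G.map_comp]
    exact congrArg (fun t => oriMap (cores f (hull a x f) (mem_hull a x f)) ≫
      u.app (hull a x f) (hull_chain hax hmax f hxf) (left_mem_hull a x f) (right_mem_hull a x f) ≫
        G.map t) (incl_iota adj _ _ (hull_chain hax hmax f hxf) ⟨a, left_mem_hull a x f⟩ hJ ⟨a, ha⟩ hs).symm
  next hxf =>
    rw [← Category.assoc, u.fix J hJ ha hx m _ fun i (hi : f i = x) => hxf ⟨i, hi⟩,
      Category.assoc, ← unit.naturality, Functor.id_map, ← Category.assoc]
    exact congrArg (fun t => t ≫ unit.app (objO E L).obj)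
      (oriMap_iota adj J hJ ⟨a, ha⟩ (cores f J hf)).symm

theorem valO_comp (u : Endo a x G unit) (k m : ℕ) (θ : Fin (k + 1) →o Fin (m + 1))
    (f : Fin (m + 1) →o E) :
    oriMap θ ≫ valO adj hax hmax u m f = valO adj hax hmax u k (f.comp θ) := by
  by_cases hx : x ∈ Set.range f
  · rw [valO_eq adj hax hmax u (f.comp θ) (hull a x f) (hull_chain hax hmax f hx) (left_mem_hull a x f)
      (right_mem_hull a x f) (fun i => mem_hull a x f (θ i)),
      valO_eq adj hax hmax u f (hull a x f) (hull_chain hax hmax f hx) (left_mem_hull a x f)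
      (right_mem_hull a x f) (mem_hull a x f), ← Category.assoc, ← oriMap_comp]
    rfl
  · rw [valO, valO, dif_neg hx, dif_neg (fun ⟨i, hi⟩ => hx ⟨θ i, hi⟩), ← Category.assoc,
      eta_comp]

/-- The map out of `O(E)` of a family. -/
def lift (hG : ∀ Y, OmegaCat.dimLE n Y → OmegaCat.dimLE n (G.obj Y)) (u : Endo a x G unit) :
    objO E L ⟶ ⟨G.obj (objO E L).obj, hG _ (objO E L).property⟩ :=
  descO adj (valO adj hax hmax u) (valO_comp adj hax hmax u)

theorem eta_lift (hG : ∀ Y, OmegaCat.dimLE n Y → OmegaCat.dimLE n (G.obj Y))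
    (u : Endo a x G unit) {m : ℕ} (f : Fin (m + 1) →o E) :
    eta adj f ≫ (lift adj hax hmax hG u).hom = valO adj hax hmax u m f :=
  eta_descO adj _ _ f

end Vale.Agent.P213
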