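import Vale.Agent.P213.Defs

/-!
# P213, Step: pushouts of retractions with transformations relative to the source
-/

open CategoryTheory Limits

noncomputable section

namespace Vale.Agent.P213

/-- What the path object of transformations supplies. -/
structure CylData : Type 1 where
  G : OmegaCat ⥤ OmegaCat
  ev₀ : G ⟶ 𝟭 OmegaCat
  ev₁ : G ⟶ 𝟭 OmegaCat
  cst : 𝟭 OmegaCat ⟶ G
  cst_ev₀ : cst ≫ ev₀ = 𝟙 _
  cst_ev₁ : cst ≫ ev₁ = 𝟙 _
  dimLE : ∀ (n : ℕ∞) (Y : OmegaCat), OmegaCat.dimLE n Y → OmegaCat.dimLE n (G.obj Y)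
  ev_eq : ∀ (Y : OmegaCat) (K : SSet.{0}), IsKan K →
    precompClass (nerve.map (ev₀.app Y)) K = precompClass (nerve.map (ev₁.app Y)) K

theorem precompClass_comp {X Y Z : SSet.{0}} (f : X ⟶ Y) (g : Y ⟶ Z) (K : SSet.{0}) :
    precompClass (f ≫ g) K = precompClass f K ∘ precompClass g K := by
  funext q
  induction q using Quot.ind with
  | mk h => simp [precompClass]

theorem precompClass_id (X K : SSet.{0}) : precompClass (𝟙 X) K = id := by
  funext q
  induction q using Quot.ind with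
  | mk h => simp [precompClass]

theorem weakEq_isIso {X Y : SSet.{0}} (f : X ⟶ Y) [IsIso f] : weakEq f := fun K _ => by
  refine Function.bijective_iff_has_inverse.2 ⟨precompClass (inv f) K, fun q => ?_, fun q => ?_⟩ <;>
    rw [← Function.comp_apply (f := precompClass _ K), ← precompClass_comp] <;>
    simp [precompClass_id]

theorem weakEq_comp {X Y Z : SSet.{0}} {f : X ⟶ Y} {g : Y ⟶ Z} (hf : weakEq f) (hg : weakEq g) :
    weakEq (f ≫ g) := fun K hK => by
  rw [precompClass_comp]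
  exact (hf K hK).comp (hg K hK)

namespace CylData

variable (c : CylData) {n : ℕ∞}

/-- The path object in `n`-categories. -/
def obj (Y : NCat n) : NCat n := ⟨c.G.obj Y.obj, c.dimLE n Y.obj Y.property⟩

/-- The constant transformation. -/
def cN (Y : NCat n) : Y ⟶ c.obj Y := ObjectProperty.homMk (c.cst.app Y.obj)

/-- The first end. -/
def e₀ (Y : NCat n) : c.obj Y ⟶ Y := ObjectProperty.homMk (c.ev₀.app Y.obj)

/-- The second end. -/
def e₁ (Y : NCat n) : c.obj Y ⟶ Y := ObjectProperty.homMk (c.ev₁.app Y.obj)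

/-- The functor on path objects. -/
def map {X Y : NCat n} (f : X ⟶ Y) : c.obj X ⟶ c.obj Y := ObjectProperty.homMk (c.G.map f.hom)

theorem cN_e₀ (Y : NCat n) : c.cN Y ≫ c.e₀ Y = 𝟙 Y :=
  ObjectProperty.hom_ext _ (congrArg (fun t => NatTrans.app t Y.obj) c.cst_ev₀)

theorem cN_e₁ (Y : NCat n) : c.cN Y ≫ c.e₁ Y = 𝟙 Y :=
  ObjectProperty.hom_ext _ (congrArg (fun t => NatTrans.app t Y.obj) c.cst_ev₁)

theorem map_cN {X Y : NCat n} (f : X ⟶ Y) : c.cN X ≫ c.map f = f ≫ c.cN Y :=
  ObjectProperty.hom_ext _ (c.cst.naturality f.hom).symm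

theorem map_e₀ {X Y : NCat n} (f : X ⟶ Y) : c.map f ≫ c.e₀ Y = c.e₀ X ≫ f :=
  ObjectProperty.hom_ext _ (c.ev₀.naturality f.hom)

theorem map_e₁ {X Y : NCat n} (f : X ⟶ Y) : c.map f ≫ c.e₁ Y = c.e₁ X ≫ f :=
  ObjectProperty.hom_ext _ (c.ev₁.naturality f.hom)

theorem precomp_e (Y : NCat n) (K : SSet.{0}) (hK : IsKan K) :
    precompClass ((nerveN n).map (c.e₀ Y)) K = precompClass ((nerveN n).map (c.e₁ Y)) K :=
  c.ev_eq Y.obj K hK

/-- An endomorphism of `B` that is the identity on `A`. -/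
abbrev RelEnd {A B : NCat n} (f : A ⟶ B) : Type := {u : B ⟶ B // f ≫ u = f}

/-- One transformation relative to `A`. -/
def RelTrans {A B : NCat n} (f : A ⟶ B) (u v : RelEnd f) : Prop :=
  ∃ H : B ⟶ c.obj B, f ≫ H = f ≫ c.cN B ∧ H ≫ c.e₀ B = u.1 ∧ H ≫ c.e₁ B = v.1

theorem stable_of_retraction {A B : NCat n} (f : A ⟶ B) (r : B ⟶ A) (hr : f ≫ r = 𝟙 A)
    (h : Relation.EqvGen (c.RelTrans f) ⟨𝟙 B, by simp⟩
      ⟨r ≫ f, by rw [← Category.assoc, hr, Category.id_comp]⟩) : Stable n f := by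
  intro C P g i j hp
  set ρ : P ⟶ C := hp.desc (𝟙 C) (r ≫ g) (by rw [← Category.assoc f r g, hr]; simp) with hρ
  have hiρ : i ≫ ρ = 𝟙 C := hp.inl_desc _ _ _
  refine ⟨fun K hK => ?_, ?_⟩
  swap
  · have : IsSplitMono i := ⟨⟨⟨ρ, hiρ⟩⟩⟩
    infer_instance
  let hat : RelEnd f → (P ⟶ P) := fun u => hp.desc i (u.1 ≫ j) (by
    rw [← Category.assoc, u.2]; exact hp.w)
  have hhat : ∀ u v, Relation.EqvGen (c.RelTrans f) u v →
      precompClass ((nerveN n).map (hat u)) K = precompClass ((nerveN n).map (hat v)) K := by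
    intro u v huv
    induction huv with
    | rel u v huv =>
      obtain ⟨H, hH, h0, h1⟩ := huv
      let Hh : P ⟶ c.obj P := hp.desc (i ≫ c.cN P) (H ≫ c.map j) (by
        rw [← Category.assoc f H, hH, Category.assoc, map_cN, ← Category.assoc, hp.w,
          Category.assoc])
      have e0 : Hh ≫ c.e₀ P = hat u := by
        apply hp.hom_ext
        · simp [Hh, hat, cN_e₀]
        · simp [Hh, hat, map_e₀, reassoc_of% h0]
      have e1 : Hh ≫ c.e₁ P = hat v := by
        apply hp.hom_ext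
        · simp [Hh, hat, cN_e₁]
        · simp [Hh, hat, map_e₁, reassoc_of% h1]
      rw [← e0, ← e1, Functor.map_comp, Functor.map_comp, precompClass_comp, precompClass_comp,
        c.precomp_e P K hK]
    | refl u => rfl
    | symm u v _ ih => exact ih.symm
    | trans u v w _ _ ih ih' => exact ih.trans ih'
  have h1 := hhat _ _ h
  have e0 : hat ⟨𝟙 B, by simp⟩ = 𝟙 P := by apply hp.hom_ext <;> simp [hat]
  have e1 : hat ⟨r ≫ f, by rw [← Category.assoc, hr, Category.id_comp]⟩ = ρ ≫ i := by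
    apply hp.hom_ext
    · simp [hat, reassoc_of% hiρ]
    · simp [hat, hρ, hp.w]
  rw [e0, e1, CategoryTheory.Functor.map_id, precompClass_id, Functor.map_comp,
    precompClass_comp] at h1
  have h2 := congrArg (fun t => precompClass ((nerveN n).map t) K) hiρ
  simp only [CategoryTheory.Functor.map_id, precompClass_id, Functor.map_comp,
    precompClass_comp] at h2
  exact Function.bijective_iff_has_inverse.2
    ⟨precompClass ((nerveN n).map ρ) K, fun q => (congrFun h1 q).symm, fun q => congrFun h2 q⟩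

end CylData

variable {n : ℕ∞}

theorem Stable.comp [HasPushouts (NCat n)] {A B B' : NCat n} {f : A ⟶ B} {f' : B ⟶ B'}
    (hf : Stable n f) (hf' : Stable n f') : Stable n (f ≫ f') := by
  intro C P g i j hp
  have top : IsPushout g f (pushout.inl g f) (pushout.inr g f) := IsPushout.of_hasPushout g f
  let k : pushout g f ⟶ P := top.desc i (f' ≫ j) (by rw [hp.w, Category.assoc])
  have hk : pushout.inl g f ≫ k = i := top.inl_desc _ _ _
  have bot : IsPushout (pushout.inr g f) f' k j := by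
    refine (IsPushout.paste_vert_iff top (top.inr_desc _ _ _)).1 ?_
    rw [hk]
    exact hp
  obtain ⟨hw₁, hm₁⟩ := hf _ _ _ top
  obtain ⟨hw₂, hm₂⟩ := hf' _ _ _ bot
  rw [← hk]
  refine ⟨?_, ?_⟩
  · change weakEq ((nerveN n).map _)
    rw [Functor.map_comp]
    exact weakEq_comp hw₁ hw₂
  · rw [Functor.map_comp]
    infer_instance

theorem Stable.mem_W {A B : NCat n} {f : A ⟶ B} (hf : Stable n f) :
    W n f ∧ Mono ((nerveN n).map f) :=
  hf (𝟙 A) f (𝟙 B) (IsPushout.of_horiz_isIso (CommSq.mk (by simp)))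

theorem Stable.of_isIso {A B : NCat n} (f : A ⟶ B) [IsIso f] : Stable n f := by
  intro C P g i j hp
  have : IsIso i := hp.isIso_inl_of_isIso
  exact ⟨weakEq_isIso _, inferInstance⟩

theorem Stable.of_arrowIso {A B A' B' : NCat n} {f : A ⟶ B} {f' : A' ⟶ B'} (eA : A ≅ A')
    (eB : B ≅ B') (h : eA.hom ≫ f' = f ≫ eB.hom) (hf : Stable n f) : Stable n f' := by
  intro C P g i j hp
  exact hf (eA.hom ≫ g) i (eB.hom ≫ j)
    ((IsPushout.of_horiz_isIso (CommSq.mk h)).paste_horiz hp)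

end Vale.Agent.P213
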