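import Vale.Agent.P213.Step.Glue

/-!
# P213, Step: functors of positive chain maps between orientals, and their transformations
-/

open CategoryTheory

noncomputable section

namespace Vale.Agent.P213

variable {E F G : Type} [PartialOrder E] [PartialOrder F] [PartialOrder G]

/-- A positive chain map between complexes of chains. -/
@[ext]
structure ChainHom (E F : Type) [PartialOrder E] [PartialOrder F] : Type where
  f : ∀ q, (Chain E q →₀ ℤ) →+ (Chain F q →₀ ℤ)
  nonneg : ∀ q v, (∀ b, 0 ≤ v b) → ∀ c, 0 ≤ f q v c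
  comm : ∀ q v, bdry q (f (q + 1) v) = f q (bdry q v)
  aug_eq : ∀ v, aug (f 0 v) = aug v

/-- The chain map of a monotone map. -/
def ChainHom.ofMap (φ : E →o F) : ChainHom E F where
  f := pushMap φ
  nonneg q _ hv := pushMap_nonneg φ q hv
  comm := bdry_pushMap φ
  aug_eq := aug_pushMap φ

/-- The composite. -/
def ChainHom.andThen (u : ChainHom E F) (v : ChainHom F G) : ChainHom E G where
  f q := (v.f q).comp (u.f q)
  nonneg q w hw := v.nonneg q _ (u.nonneg q w hw)
  comm q w := by simp [v.comm, u.comm]
  aug_eq w := (v.aug_eq _).trans (u.aug_eq w)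

/-- The image of a cell. -/
def ChainHom.table (u : ChainHom E F) (x : Table E) : Table F where
  neg q := u.f q (x.neg q)
  pos q := u.f q (x.pos q)
  neg_nonneg q := u.nonneg q _ (x.neg_nonneg q)
  pos_nonneg q := u.nonneg q _ (x.pos_nonneg q)
  bounded := by
    obtain ⟨N, hN⟩ := x.bounded
    exact ⟨N, fun q hq => by simp [hN q hq]⟩
  aug_neg := (u.aug_eq _).trans x.aug_neg
  aug_pos := (u.aug_eq _).trans x.aug_pos
  bdry_neg q := by rw [u.comm, x.bdry_neg, map_sub]
  bdry_pos q := by rw [u.comm, x.bdry_pos, map_sub]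

theorem ChainHom.table_src (u : ChainHom E F) (i : ℕ) (x : Table E) :
    u.table (x.src i) = (u.table x).src i := Table.ext' fun q => by
  constructor <;> simp only [ChainHom.table, Table.src] <;> split_ifs <;> simp

theorem ChainHom.table_tgt (u : ChainHom E F) (i : ℕ) (x : Table E) :
    u.table (x.tgt i) = (u.table x).tgt i := Table.ext' fun q => by
  constructor <;> simp only [ChainHom.table, Table.tgt] <;> split_ifs <;> simp

/-- The functor of a positive chain map. -/
def oriLin (u : ChainHom E F) : ori E ⟶ ori F where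
  toFun := u.table
  map_src := u.table_src
  map_tgt := u.table_tgt
  map_comp i x y h := Table.ext' fun q => by
    have h' : (u.table x).tgt i = (u.table y).src i :=
      ((u.table_tgt i x).symm.trans (congrArg u.table h)).trans (u.table_src i y)
    obtain ⟨a1, a2⟩ := Table.comp_of_eq (x := x) (y := y) h q
    obtain ⟨b1, b2⟩ := Table.comp_of_eq h' q
    constructor
    · show u.f q ((Table.comp i x y).neg q) = (Table.comp i (u.table x) (u.table y)).neg q
      rw [b1, a1]
      split_ifs <;> simp [ChainHom.table]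
    · show u.f q ((Table.comp i x y).pos q) = (Table.comp i (u.table x) (u.table y)).pos q
      rw [b2, a2]
      split_ifs <;> simp [ChainHom.table]

theorem oriLin_comp (u : ChainHom E F) (v : ChainHom F G) :
    oriLin (u.andThen v) = oriLin u ≫ oriLin v := rfl

theorem oriLin_ofMap (φ : E →o F) : oriLin (ChainHom.ofMap φ) = oriMap φ := rfl

/-- A positive homotopy from `u` to `v`: `dh + hd = v - u`. -/
structure ChainTrans {E F : Type} [PartialOrder E] [PartialOrder F] (u v : ChainHom E F) : Type where
  h : ∀ q, (Chain E q →₀ ℤ) →+ (Chain F (q + 1) →₀ ℤ)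
  nonneg : ∀ q w, (∀ b, 0 ≤ w b) → ∀ c, 0 ≤ h q w c
  zero : ∀ w, bdry 0 (h 0 w) = v.f 0 w - u.f 0 w
  succ : ∀ q w, bdry (q + 1) (h (q + 1) w) + h q (bdry q w) = v.f (q + 1) w - u.f (q + 1) w

/-- What the cylinders supply for positive homotopies. -/
structure TransData (c : CylData) : Type 1 where
  cyl : ∀ {E F : Type} [PartialOrder E] [PartialOrder F] {u v : ChainHom E F},
    ChainTrans u v → (ori E ⟶ c.G.obj (ori F))
  cyl_ev₀ : ∀ {E F : Type} [PartialOrder E] [PartialOrder F] {u v : ChainHom E F}
    (t : ChainTrans u v), cyl t ≫ c.ev₀.app (ori F) = oriLin u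
  cyl_ev₁ : ∀ {E F : Type} [PartialOrder E] [PartialOrder F] {u v : ChainHom E F}
    (t : ChainTrans u v), cyl t ≫ c.ev₁.app (ori F) = oriLin v
  /-- Squares of monotone maps compatible with two homotopies. -/
  cyl_natural : ∀ {E F E' F' : Type} [PartialOrder E] [PartialOrder F] [PartialOrder E']
    [PartialOrder F'] (φ : E →o E') (ψ : F →o F') {u v : ChainHom E F} {u' v' : ChainHom E' F'}
    (t : ChainTrans u v) (t' : ChainTrans u' v'),
    u.andThen (ChainHom.ofMap ψ) = (ChainHom.ofMap φ).andThen u' →
    v.andThen (ChainHom.ofMap ψ) = (ChainHom.ofMap φ).andThen v' →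
    (∀ q w, pushMap ψ (q + 1) (t.h q w) = t'.h q (pushMap φ q w)) →
    cyl t ≫ c.G.map (oriMap ψ) = oriMap φ ≫ cyl t'
  /-- A homotopy vanishing on the image of a monotone map is constant there. -/
  cyl_const : ∀ {D E : Type} [PartialOrder D] [PartialOrder E] (φ : D →o E) {u v : ChainHom E E}
    (t : ChainTrans u v), (∀ q w, u.f q (pushMap φ q w) = pushMap φ q w) →
    (∀ q w, v.f q (pushMap φ q w) = pushMap φ q w) → (∀ q w, t.h q (pushMap φ q w) = 0) →
    oriMap φ ≫ cyl t = oriMap φ ≫ c.cst.app (ori E)

end Vale.Agent.P213
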