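import Vale.Agent.P213.Chains.Psi
import Vale.Agent.P213.Step.Beat
import Vale.Agent.P213.Step.Trans

/-!
# P213, Step: the zigzag of families from the identity to the retraction of a beat point
-/

open CategoryTheory

noncomputable section

namespace Vale.Agent.P213

open Chains Finsupp

variable {E : Type} [PartialOrder E] [Finite E] {a x : E}

instance : Fintype (LinearExtension E) :=
  have : Finite (LinearExtension E) := ‹Finite E›
  Fintype.ofFinite _

omit [Finite E] in
theorem Endo.ext' {G : OmegaCat ⥤ OmegaCat} {unit : 𝟭 OmegaCat ⟶ G} {u v : Endo a x G unit}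
    (h : ∀ J hJ ha hx, u.app J hJ ha hx = v.app J hJ ha hx) : u = v := by
  cases u; cases v
  congr 1
  funext J hJ ha hx
  exact h J hJ ha hx

/-- The linear order of a chain. -/
@[reducible] def chainLO (J : Set E) (hJ : IsChain (· ≤ ·) J) : LinearOrder J :=
  { (inferInstance : PartialOrder J) with
    le_total := fun p q => hJ.total p.2 q.2
    toDecidableLE := Classical.decRel _
    toDecidableEq := Classical.decEq _
    toDecidableLT := Classical.decRel _ }

variable (hax : a < x) (hmax : ∀ y, y < x → y ≤ a)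

include hax hmax in
omit [Finite E] in
theorem chain_cov {J : Set E} (hJ : IsChain (· ≤ ·) J) (ha : a ∈ J) (hx : x ∈ J) (v : J) :
    v < ⟨a, ha⟩ ∨ v = ⟨a, ha⟩ ∨ v = ⟨x, hx⟩ ∨ (⟨x, hx⟩ : J) < v := by
  by_cases hvx : (v : E) = x
  · exact Or.inr (Or.inr (Or.inl (Subtype.ext hvx)))
  rcases hJ.total v.2 hx with h | h
  · rcases (hmax _ (lt_of_le_of_ne h hvx)).lt_or_eq with h' | h'
    · exact Or.inl h'
    · exact Or.inr (Or.inl (Subtype.ext h'))
  · exact Or.inr (Or.inr (Or.inr (lt_of_le_of_ne h fun e => hvx (congrArg Subtype.val e).symm)))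

/-- A chain inside the linear extension. -/
def extMap (J : Set E) (v : J) : LinearExtension E := toLinearExtension (v : E)

omit [Finite E] in
theorem extMap_strictMono (J : Set E) : StrictMono (extMap J) := fun _ _ h =>
  lt_of_le_of_ne (toLinearExtension.monotone h.le) fun e => h.ne (Subtype.ext e)

set_option linter.style.haveILetI false

open Classical in
/-- A family of sets of the extension, read on a chain. -/
def subFam (P : Finset (LinearExtension E) → Prop) (J : Set E) (z : Finset J) : Prop :=
  P (z.image (extMap J))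

variable (P P' : Finset (LinearExtension E) → Prop) (hP : IsLower P) (hP' : IsLower P')

instance (J : Set E) : DecidablePred (subFam P J) := fun _ => Classical.propDecidable _

/-- The retraction of a lower family on a chain, as a chain map. -/
def psiHom (J : Set E) (hJ : IsChain (· ≤ ·) J) (ha : a ∈ J) (hx : x ∈ J) : ChainHom J J :=
  letI := chainLO J hJ
  { f := fun q => psiCLin (⟨a, ha⟩ : J) ⟨x, hx⟩ (subFam P J) q
    nonneg := fun q v hv c => by
      rw [psiCLin_eq_sum, Finsupp.sum, Finset.sum_apply']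
      refine Finset.sum_nonneg fun b _ => ?_
      rw [Finsupp.smul_apply, smul_eq_mul]
      refine mul_nonneg (hv b) (psiC_nonneg _ hax (chain_cov hax hmax hJ ha hx) ?_ q b c)
      have h := isLower_comap (extMap_strictMono J) P hP
      classical
      convert h using 2
      unfold subFam
      congr! 2
    comm := bdry_psiCLin _
    aug_eq := fun v => by
      induction v using Finsupp.induction_linear with
      | zero => simp
      | add p p' hp hp' => simp [map_add, hp, hp']
      | single c r =>
        rw [psiCLin_single, map_zsmul, psiC_aug]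
        simp [aug] }

omit [Finite E] in
theorem subFam_incl {J J' : Set E} (h : J ⊆ J') [DecidableEq J'] (z : Finset J) :
    subFam P J z ↔ subFam P J' (z.image (setIncl h)) := by
  classical
  unfold subFam
  rw [Finset.image_image]
  exact iff_of_eq (congrArg P (by congr! 1))

omit [Finite E] in
theorem psiHom_push (J J' : Set E) (hJ : IsChain (· ≤ ·) J) (ha : a ∈ J) (hx : x ∈ J)
    (hJ' : IsChain (· ≤ ·) J') (ha' : a ∈ J') (hx' : x ∈ J') (h : J ⊆ J') :
    (psiHom hax hmax P hP J hJ ha hx).andThen (ChainHom.ofMap (setIncl h)) =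
      (ChainHom.ofMap (setIncl h)).andThen (psiHom hax hmax P hP J' hJ' ha' hx') := by
  letI := chainLO J hJ
  letI := chainLO J' hJ'
  refine ChainHom.ext (funext fun q => AddMonoidHom.ext fun v => ?_)
  exact psiCLin_push (J := J) (J' := J') (φ := setIncl h) (subFam P J) (fun _ _ hvw => hvw)
    (subFam P J') (fun z => subFam_incl P h z) v

omit [Finite E] in
theorem psiHom_fix (J : Set E) (hJ : IsChain (· ≤ ·) J) (ha : a ∈ J) (hx : x ∈ J) {m : ℕ}
    (g : Fin (m + 1) →o J) (hg : ∀ i, (g i : E) ≠ x) (q : ℕ) (w : Chain (Fin (m + 1)) q →₀ ℤ) :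
    (psiHom hax hmax P hP J hJ ha hx).f q (pushMap g q w) = pushMap g q w := by
  letI := chainLO J hJ
  show psiCLin (⟨a, ha⟩ : J) ⟨x, hx⟩ (subFam P J) q _ = _
  induction w using Finsupp.induction_linear with
  | zero => simp
  | add p p' hp hp' => simp [map_add, hp, hp']
  | single c r =>
    rw [pushMap_single, map_zsmul, Chain.push]
    split_ifs with hc
    · rw [psiCLin_single, one_smul,
        (psiC_of_notMem (subFam P J) (subFam P J) fun i (hi : g (c.1 i) = ⟨x, hx⟩) =>
          hg _ (congrArg Subtype.val hi)).1]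
    · rw [map_zero]

/-- The retraction of a lower family as a natural family. -/
def psiEndo : Endo a x (𝟭 OmegaCat) (𝟙 _) where
  app J hJ ha hx := oriLin (psiHom hax hmax P hP J hJ ha hx)
  nat J J' hJ ha hx hJ' ha' hx' h :=
    congrArg oriLin (psiHom_push hax hmax P hP J J' hJ ha hx hJ' ha' hx' h)
  fix J hJ ha hx m g hg := by
    refine Eq.trans ?_ (Category.comp_id _).symm
    show oriLin ((ChainHom.ofMap g).andThen (psiHom hax hmax P hP J hJ ha hx)) =
      oriLin (ChainHom.ofMap g)
    refine congrArg oriLin ?_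
    exact ChainHom.ext (funext fun q => AddMonoidHom.ext fun w =>
      psiHom_fix hax hmax P hP J hJ ha hx g hg q w)

variable {c : CylData} (T : TransData c)

/-- The homotopy between two lower families on a chain, when it is positive. -/
def psiTrans (J : Set E) (hJ : IsChain (· ≤ ·) J) (ha : a ∈ J) (hx : x ∈ J)
    (hpos : letI := chainLO J hJ
      ∀ q b d, 0 ≤ hC (⟨a, ha⟩ : J) ⟨x, hx⟩ (subFam P J) (subFam P' J) q b d) :
    ChainTrans (psiHom hax hmax P hP J hJ ha hx) (psiHom hax hmax P' hP' J hJ ha hx) :=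
  letI := chainLO J hJ
  { h := hCLin (⟨a, ha⟩ : J) ⟨x, hx⟩ (subFam P J) (subFam P' J)
    nonneg := fun q w hw d => by
      rw [hCLin_eq_sum, Finsupp.sum, Finset.sum_apply']
      exact Finset.sum_nonneg fun b _ => by
        rw [Finsupp.smul_apply, smul_eq_mul]; exact mul_nonneg (hw b) (hpos q b d)
    zero := fun w => by
      refine incl_injective 0 ?_
      show _ = incl 0 (psiCLin _ _ (subFam P' J) 0 w - psiCLin _ _ (subFam P J) 0 w)
      rw [map_sub, incl_psiCLin, incl_psiCLin, incl_bdry, incl_hCLin]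
      have h0 : stepLin (subFam P J) (subFam P' J) (⟨a, ha⟩ : J) ⟨x, hx⟩
          (bdLin (incl 0 w)) = 0 := by
        rw [bdLin_incl_zero, stepLin_single, stepHom_of_notMem _ _ (Finset.notMem_empty _),
          smul_zero]
      simp only [psiLin, stepLin, AddMonoidHom.sub_apply, AddMonoidHom.comp_apply,
        AddMonoidHom.id_apply, map_sub] at h0 ⊢
      rw [sub_eq_zero] at h0
      rw [h0]
      abel
    succ := fun q w => by
      refine incl_injective (q + 1) ?_
      show _ = incl (q + 1) (psiCLin _ _ (subFam P' J) _ w - psiCLin _ _ (subFam P J) _ w)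
      rw [map_sub, map_add, incl_psiCLin, incl_psiCLin, incl_bdry, incl_hCLin, incl_hCLin,
        incl_bdry]
      simp only [psiLin, stepLin, AddMonoidHom.sub_apply, AddMonoidHom.comp_apply,
        AddMonoidHom.id_apply, map_sub]
      abel }

include hax hmax T in
theorem famTrans_of_pos
    (hpos : ∀ (J : Set E) (hJ : IsChain (· ≤ ·) J) (ha : a ∈ J) (hx : x ∈ J),
      letI := chainLO J hJ
      ∀ q b d, 0 ≤ hC (⟨a, ha⟩ : J) ⟨x, hx⟩ (subFam P J) (subFam P' J) q b d) :
    FamTrans c (psiEndo hax hmax P hP) (psiEndo hax hmax P' hP') := by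
  refine ⟨⟨fun J hJ ha hx =>
      T.cyl (psiTrans hax hmax P P' hP hP' J hJ ha hx (hpos J hJ ha hx)),
    fun J J' hJ ha hx hJ' ha' hx' h => ?_, fun J hJ ha hx m g hg => ?_⟩,
    fun J hJ ha hx => T.cyl_ev₀ _, fun J hJ ha hx => T.cyl_ev₁ _⟩
  · refine T.cyl_natural (setIncl h) (setIncl h) _ _ (psiHom_push hax hmax P hP J J' hJ ha hx hJ' ha' hx' h)
      (psiHom_push hax hmax P' hP' J J' hJ ha hx hJ' ha' hx' h) fun q w => ?_
    letI := chainLO J hJ
    letI := chainLO J' hJ'
    exact hCLin_push (J := J) (J' := J') (φ := setIncl h) (subFam P J) (subFam P' J)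
      (fun _ _ hvw => hvw) (subFam P J') (fun z => subFam_incl P h z) (subFam P' J')
      (fun z => subFam_incl P' h z) w
  · refine T.cyl_const g _ (psiHom_fix hax hmax P hP J hJ ha hx g hg)
      (psiHom_fix hax hmax P' hP' J hJ ha hx g hg) fun q w => ?_
    letI := chainLO J hJ
    show hCLin (⟨a, ha⟩ : J) ⟨x, hx⟩ (subFam P J) (subFam P' J) q _ = 0
    induction w using Finsupp.induction_linear with
    | zero => simp
    | add p p' hp hp' => simp [map_add, hp, hp']
    | single d r =>
      rw [pushMap_single, map_zsmul, Chain.push]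
      split_ifs with hd
      · rw [hCLin_single, one_smul,
          (psiC_of_notMem (subFam P J) (subFam P' J) fun i (hi : g (d.1 i) = ⟨x, hx⟩) =>
            hg _ (congrArg Subtype.val hi)).2, smul_zero]
      · rw [map_zero, smul_zero]

theorem psiEndo_all (h : ∀ z, P z) : psiEndo hax hmax P hP = idEndo a x := by
  refine Endo.ext' fun J hJ ha hx => ?_
  show oriLin _ = 𝟙 (ori J)
  rw [← oriMap_id, ← oriLin_ofMap]
  refine congrArg oriLin (ChainHom.ext (funext fun q => Finsupp.addHom_ext fun b r => ?_))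
  letI := chainLO J hJ
  show psiCLin (⟨a, ha⟩ : J) ⟨x, hx⟩ (subFam P J) q _ = pushMap OrderHom.id q _
  rw [psiCLin_single, pushMap_single, psiC_univ (subFam P J) (fun z => h _), Chain.push,
    dif_pos (show StrictMono ((OrderHom.id : J →o J) ∘ b.1) from b.2)]
  rfl

theorem psiEndo_none (h : ∀ z, ¬ P z) : psiEndo hax hmax P hP = retrEndo hax hmax := by
  refine Endo.ext' fun J hJ ha hx => ?_
  show oriLin _ = oriMap (beatRes hax hmax J ha)
  rw [← oriLin_ofMap]
  refine congrArg oriLin (ChainHom.ext (funext fun q => Finsupp.addHom_ext fun b r => ?_))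
  letI := chainLO J hJ
  show psiCLin (⟨a, ha⟩ : J) ⟨x, hx⟩ (subFam P J) q _ = pushMap (beatRes hax hmax J ha) q _
  rw [psiCLin_single, pushMap_single, psiC_empty (subFam P J) (show (⟨a, ha⟩ : J) < ⟨x, hx⟩ from hax)
    (chain_cov hax hmax hJ ha hx) fun z => h _]
  congr 2
  refine OrderHom.ext _ _ (funext fun v => Subtype.ext ?_)
  show ((if v = ⟨x, hx⟩ then (⟨a, ha⟩ : J) else v) : J).1 = beatMap hax hmax v.1
  classical
  show _ = if (v : E) = x then a else (v : E)
  by_cases hv : (v : E) = x
  · rw [if_pos hv, if_pos (Subtype.ext hv)]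
  · rw [if_neg hv, if_neg fun e => hv (congrArg Subtype.val e)]

include T in
/-- The zigzag. -/
theorem exists_zigzag :
    Relation.EqvGen (FamTrans c) (idEndo a x) (retrEndo hax hmax) := by
  classical
  let P : ℕ → Finset (LinearExtension E) → Prop := fun k => Seg k
  let F : ℕ → Endo a x (𝟭 OmegaCat) (𝟙 _) := fun k => psiEndo hax hmax (P k) (isLower_seg k)
  have hN : F (Fintype.card (Finset (LinearExtension E))) = idEndo a x :=
    psiEndo_all hax hmax _ _ fun z => segOn_last (ψ := id) z |> fun h => by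
      simpa [segOn] using h
  have h0 : F 0 = retrEndo hax hmax := psiEndo_none hax hmax _ _ fun z => Nat.not_lt_zero _
  rw [← hN, ← h0]
  generalize Fintype.card (Finset (LinearExtension E)) = N
  induction N with
  | zero => exact Relation.EqvGen.refl _
  | succ k ih =>
    refine Relation.EqvGen.trans _ _ _ ?_ ih
    obtain ⟨z₀, hz₀⟩ : ∃ z₀ : Finset (LinearExtension E),
        ∀ z, P (k + 1) z → ¬ P k z → z = z₀ := by
      by_cases hex : ∃ z, P (k + 1) z ∧ ¬ P k z
      · obtain ⟨z₀, h₁, h₂⟩ := hex
        exact ⟨z₀, fun z h₃ h₄ => altRank_injective (by simp only [P, Seg] at h₁ h₂ h₃ h₄; omega)⟩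
      · exact ⟨∅, fun z h₃ h₄ => absurd ⟨z, h₃, h₄⟩ hex⟩
    have hsigned : ∀ (J : Set E) (hJ : IsChain (· ≤ ·) J) (ha : a ∈ J) (hx : x ∈ J),
        letI := chainLO J hJ
        ∀ q b d, 0 ≤ ((-1 : ℤ) ^ z₀.card) *
          hC (⟨a, ha⟩ : J) ⟨x, hx⟩ (subFam (P k) J) (subFam (P (k + 1)) J) q b d := by
      intro J hJ ha hx
      letI := chainLO J hJ
      intro q b d
      have h := stepHom_signed (subFam (P k) J) (subFam (P (k + 1)) J) (a := (⟨a, ha⟩ : J))
        (x := ⟨x, hx⟩) hax (chain_cov hax hmax hJ ha hx) (fun z hz => Nat.lt_succ_of_lt hz)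
        ((-1 : ℤ) ^ z₀.card) (fun z h₁ h₂ => by
          have e := hz₀ _ h₁ h₂
          rw [← e, Finset.card_image_of_injective _ (extMap_strictMono J).injective])
        (toSet b) (toSet d)
      rw [Finsupp.smul_apply, smul_eq_mul] at h
      exact h
    rcases neg_one_pow_eq_or ℤ z₀.card with hε | hε
    · refine Relation.EqvGen.symm _ _ (Relation.EqvGen.rel _ _
        (famTrans_of_pos hax hmax _ _ _ _ T fun J hJ ha hx q b d => ?_))
      simpa [hε] using hsigned J hJ ha hx q b d
    · refine Relation.EqvGen.rel _ _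
        (famTrans_of_pos hax hmax _ _ _ _ T fun J hJ ha hx q b d => ?_)
      have h := hsigned J hJ ha hx q b d
      letI := chainLO J hJ
      have e : hC (⟨a, ha⟩ : J) ⟨x, hx⟩ (subFam (P (k + 1)) J) (subFam (P k) J) q b
          = -hC (⟨a, ha⟩ : J) ⟨x, hx⟩ (subFam (P k) J) (subFam (P (k + 1)) J) q b := by
        simp [hC, stepHom]
      rw [e, Finsupp.neg_apply]
      simpa [hε] using h

end Vale.Agent.P213
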